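import Vale.Agent.P098.Six.S10.All
import Vale.Agent.P098.Six.S10.Check
import Vale.Agent.P098.Six.Positive

/-!
# P098, six dimensions: the certificate of a segment
-/

namespace Vale.Agent.P098.Six.S10

theorem cert : SegCert 10 :=
  ⟨seg, seg_ok, segGood_of_runL seg_pos lay_ok roots_ok (tree_ok packed)⟩

end Vale.Agent.P098.Six.S10
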